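import Crest.Agent.R141.ExL
import Crest.Agent.R141.Poisson

/-! Auxiliary facts for the Aizenman–Sims–Starr step: product laws, averaging operators, the law of
one clause. -/

set_option autoImplicit false

namespace Crest.Agent.R141.Ass

open Finset Crest.ProbabilityR.Diluted
open scoped BigOperators

section pv
variable {α : Type} [Fintype α] (p : PV α)

theorem E_congr {f g : α → ℝ} (h : ∀ a, f a = g a) : p.E f = p.E g := by
  rw [funext h]

theorem E_pi_append (K k : ℕ) (G : (Fin (K + k) → α) → ℝ) :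
    (p.pi (Fin (K + k))).E G =
      (p.pi (Fin K)).E fun a => (p.pi (Fin k)).E fun b => G (Fin.append a b) := by
  rw [← PV.E_pi_two p (Fin.castAdd k) (Fin.natAdd K) (Fin.castAdd_injective _ _)
    (Fin.natAdd_injective _ _)
    (fun i j h => by have := congrArg Fin.val h; simp at this; omega)]
  refine E_congr _ fun θ => ?_
  rw [Fin.append_castAdd_natAdd]

theorem E_pi_cons (n : ℕ) (G : (Fin (n + 1) → α) → ℝ) :
    (p.pi (Fin (n + 1))).E G = p.E fun a => (p.pi (Fin n)).E fun b => G (Fin.cons a b) := by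
  unfold PV.E PV.pi
  rw [← (Fin.consEquiv fun _ : Fin (n + 1) => α).sum_comp, Fintype.sum_prod_type]
  refine sum_congr rfl fun a _ => ?_
  rw [mul_sum]
  refine sum_congr rfl fun b _ => ?_
  simp only [Fin.consEquiv, Equiv.coe_fn_mk, Fin.prod_univ_succ, Fin.cons_zero, Fin.cons_succ]
  ring

theorem E_pi_snoc (n : ℕ) (G : (Fin (n + 1) → α) → ℝ) :
    (p.pi (Fin (n + 1))).E G = (p.pi (Fin n)).E fun b => p.E fun a => G (Fin.snoc b a) := by
  rw [PV.E_comm]
  unfold PV.E PV.pi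
  rw [← (Fin.snocEquiv fun _ : Fin (n + 1) => α).sum_comp, Fintype.sum_prod_type]
  refine sum_congr rfl fun a _ => ?_
  rw [mul_sum]
  refine sum_congr rfl fun b _ => ?_
  simp only [Fin.snocEquiv, Equiv.coe_fn_mk, Fin.prod_univ_castSucc, Fin.snoc_last,
    Fin.snoc_castSucc]
  ring

theorem E_pi_zero (G : (Fin 0 → α) → ℝ) : (p.pi (Fin 0)).E G = G Fin.elim0 := by
  rw [E_congr _ (g := fun _ => G Fin.elim0) fun a => by rw [Subsingleton.elim a Fin.elim0],
    PV.E_const]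

theorem expect_append [Nonempty α] (K k : ℕ) (G : (Fin (K + k) → α) → ℝ) :
    𝔼 θ, G θ = 𝔼 a : Fin K → α, 𝔼 b : Fin k → α, G (Fin.append a b) := by
  rw [← PV.unif_pi_E, E_pi_append, PV.unif_pi_E]
  simp only [PV.unif_pi_E]

theorem expect_curry {ι ι' : Type} [Fintype ι] [DecidableEq ι] [Fintype ι'] [DecidableEq ι']
    (G : (ι × ι' → α) → ℝ) : 𝔼 v, G v = 𝔼 v : ι → ι' → α, G fun l => v l.1 l.2 :=
  Fintype.expect_equiv (Equiv.curry ι ι' α) _ _ fun _ => rfl

theorem E_tsum {a : ℝ} (f : α → ℕ → ℝ) (hf : ∀ x, Summable fun k => poissonWeight a k * f x k) :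
    p.E (fun x => ∑' k, poissonWeight a k * f x k) =
      ∑' k, poissonWeight a k * p.E fun x => f x k := by
  unfold PV.E
  simp only [← tsum_mul_left]
  rw [← Summable.tsum_finsetSum fun x _ => (hf x).mul_left (p.w x)]
  refine tsum_congr fun k => ?_
  rw [mul_sum]
  exact sum_congr rfl fun x _ => by ring

end pv

theorem tsum_poi_add_const {a : ℝ} {f : ℕ → ℝ} (hf : Summable fun k => poissonWeight a k * f k)
    (c : ℝ) : ∑' k, poissonWeight a k * (f k + c) = ∑' k, poissonWeight a k * f k + c := by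
  have h1 := (hasSum_poi a).mul_right c
  simp only [mul_add]
  rw [hf.tsum_add h1.summable, h1.tsum_eq, one_mul]

theorem summable_poi_add_const {a : ℝ} {f : ℕ → ℝ}
    (hf : Summable fun k => poissonWeight a k * f k) (c : ℝ) :
    Summable fun k => poissonWeight a k * (f k + c) :=
  (hf.add ((hasSum_poi a).summable.mul_right c)).congr fun k => (mul_add _ _ _).symm

/-! ### averaging operators -/

section op
variable {S : Type}

/-- add a random term to the Hamiltonian -/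
noncomputable def op {A : Type} [Fintype A] (ν : PV A) (en : A → S → ℝ) :
    Module.End ℝ ((S → ℝ) → ℝ) where
  toFun Ψ H := ν.E fun c => Ψ (H + en c)
  map_add' Ψ Ψ' := by
    funext H
    exact ν.E_add _ _
  map_smul' r Ψ := by
    funext H
    exact ν.E_mul_left _ _

theorem op_apply {A : Type} [Fintype A] (ν : PV A) (en : A → S → ℝ) (Ψ : (S → ℝ) → ℝ)
    (H : S → ℝ) : op ν en Ψ H = ν.E fun c => Ψ (H + en c) := rfl

theorem op_comm {A A' : Type} [Fintype A] [Fintype A'] (ν : PV A) (en : A → S → ℝ) (ν' : PV A')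
    (en' : A' → S → ℝ) : Commute (op ν en) (op ν' en') := by
  refine LinearMap.ext fun Ψ => funext fun H => ?_
  simp only [Module.End.mul_apply, op_apply]
  rw [PV.E_comm]
  exact E_congr _ fun _ => E_congr _ fun _ => by rw [add_right_comm]

theorem op_pow {A : Type} [Fintype A] (ν : PV A) (en : A → S → ℝ) (Ψ : (S → ℝ) → ℝ) :
    ∀ (n : ℕ) (H : S → ℝ),
      (op ν en ^ n) Ψ H = (ν.pi (Fin n)).E fun c => Ψ (H + ∑ j, en (c j))
  | 0, H => by simp [E_pi_zero]
  | n + 1, H => by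
      rw [pow_succ', Module.End.mul_apply, op_apply, E_pi_cons]
      refine E_congr _ fun a => ?_
      rw [op_pow ν en Ψ n]
      refine E_congr _ fun b => ?_
      simp [Fin.sum_univ_succ, add_assoc]

/-- `1`-Lipschitz for the sup norm -/
def Lip (Ψ : (S → ℝ) → ℝ) : Prop :=
  ∀ (H H' : S → ℝ) (d : ℝ), (∀ σ, |H σ - H' σ| ≤ d) → |Ψ H - Ψ H'| ≤ d

theorem Lip.op {Ψ : (S → ℝ) → ℝ} (h : Lip Ψ) {A : Type} [Fintype A] (ν : PV A) (en : A → S → ℝ) :
    Lip (op ν en Ψ) := fun H H' d hd =>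
  ν.abs_E_sub_le fun c => h _ _ d fun σ => by simpa using hd σ

theorem Lip.mix {Ψ Ψ' : (S → ℝ) → ℝ} (h : Lip Ψ) (h' : Lip Ψ') {q : ℝ} (h0 : 0 ≤ q) (h1 : q ≤ 1) :
    Lip (q • Ψ + (1 - q) • Ψ') := by
  intro H H' d hd
  have a1 := abs_le.1 (h H H' d hd)
  have a2 := abs_le.1 (h' H H' d hd)
  have h2 : 0 ≤ 1 - q := by linarith
  simp only [Pi.add_apply, Pi.smul_apply, smul_eq_mul]
  rw [abs_le]
  constructor <;> nlinarith [mul_le_mul_of_nonneg_left a1.1 h0, mul_le_mul_of_nonneg_left a1.2 h0,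
    mul_le_mul_of_nonneg_left a2.1 h2, mul_le_mul_of_nonneg_left a2.2 h2]

theorem op_iter {A A₀ A₁ : Type} [Fintype A] [Fintype A₀] [Fintype A₁] (ν : PV A) (en : A → S → ℝ)
    (ν₀ : PV A₀) (en₀ : A₀ → S → ℝ) (ν₁ : PV A₁) (en₁ : A₁ → S → ℝ) {q δ : ℝ} (h0 : 0 ≤ q)
    (h1 : q ≤ 1)
    (h : ∀ Ψ, Lip Ψ → ∀ H, q * op ν₀ en₀ Ψ H + (1 - q) * op ν₁ en₁ Ψ H - δ ≤ op ν en Ψ H)
    {Ψ : (S → ℝ) → ℝ} (hΨ : Lip Ψ) (n : ℕ) (H : S → ℝ) :
    ∑ K ∈ range (n + 1), (n.choose K : ℝ) * q ^ K * (1 - q) ^ (n - K) *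
      (op ν₀ en₀ ^ K) ((op ν₁ en₁ ^ (n - K)) Ψ) H - n * δ ≤ (op ν en ^ n) Ψ H := by
  set T : Module.End ℝ ((S → ℝ) → ℝ) := q • op ν₀ en₀ + (1 - q) • op ν₁ en₁ with hT
  have hTl : ∀ Ψ, Lip Ψ → Lip (T Ψ) := fun Ψ hΨ => (hΨ.op ν₀ en₀).mix (hΨ.op ν₁ en₁) h0 h1
  have hTn : ∀ n : ℕ, Lip ((T ^ n) Ψ) := by
    intro n
    induction n with
    | zero => simpa using hΨ
    | succ n ih => rw [pow_succ', Module.End.mul_apply]; exact hTl _ ih
  have key : ∀ (n : ℕ) (H : S → ℝ), (T ^ n) Ψ H - n * δ ≤ (op ν en ^ n) Ψ H := by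
    intro n
    induction n with
    | zero => intro H; simp
    | succ n ih =>
      intro H
      rw [pow_succ', pow_succ', Module.End.mul_apply, Module.End.mul_apply]
      have h2 : op ν en ((T ^ n) Ψ) H - n * δ ≤ op ν en ((op ν en ^ n) Ψ) H := by
        rw [op_apply, op_apply, ← ν.E_const (n * δ), ← PV.E_sub]
        exact ν.E_mono fun c => ih _
      have h3 := h _ (hTn n) H
      have h4 : T ((T ^ n) Ψ) H =
          q * op ν₀ en₀ ((T ^ n) Ψ) H + (1 - q) * op ν₁ en₁ ((T ^ n) Ψ) H := rfl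
      push_cast
      linarith
  refine le_trans (le_of_eq ?_) (key n H)
  congr 1
  have hc : Commute (q • op ν₀ en₀) ((1 - q) • op ν₁ en₁) :=
    ((op_comm ν₀ en₀ ν₁ en₁).smul_left q).smul_right (1 - q)
  rw [hT, hc.add_pow, LinearMap.sum_apply, Finset.sum_apply]
  refine sum_congr rfl fun K _ => ?_
  rw [smul_pow, smul_pow, ← nsmul_eq_mul']
  rw [LinearMap.smul_apply, Pi.smul_apply, nsmul_eq_mul]
  simp only [LinearMap.smul_apply, Module.End.mul_apply, map_smul, Pi.smul_apply, smul_eq_mul]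
  ring

end op

/-! ### the sites of one clause -/

section sites
variable {p N : ℕ}

/-- the new site in the last position -/
def ext (v : Fin (p - 1) → Fin (N + 1)) : Fin p → Fin (N + 2) :=
  fun l => if hl : l.val < p - 1 then (v ⟨l.val, hl⟩).castSucc else Fin.last _

theorem ext_eq_last (hp : 1 ≤ p) (v : Fin (p - 1) → Fin (N + 1)) (l : Fin p) :
    ext v l = Fin.last _ ↔ l = ⟨p - 1, by omega⟩ := by
  unfold ext
  split_ifs with hl
  · constructor
    · intro h; exact absurd h (Fin.castSucc_ne_last _)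
    · intro h; rw [h] at hl; simp at hl
  · simp only [true_iff]
    ext
    have := l.2
    simp only
    omega

theorem ext_injective : Function.Injective (ext : (Fin (p - 1) → Fin (N + 1)) → _) := by
  intro v v' h
  funext t
  have := congrFun h ⟨t.val, by have := t.2; omega⟩
  simpa [ext] using this

theorem sites_ge (hp : 1 ≤ p) (g : (Fin p → Fin (N + 2)) → ℝ) {D : ℝ}
    (hD : ∀ i i', |g i - g i'| ≤ D) (hs : ∀ i (π : Equiv.Perm (Fin p)), g (i ∘ π) = g i) :
    (((N : ℝ) + 1) / (N + 2)) ^ p * (𝔼 i : Fin p → Fin (N + 1), g fun l => (i l).castSucc) +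
      (1 - (((N : ℝ) + 1) / (N + 2)) ^ p) * (𝔼 v : Fin (p - 1) → Fin (N + 1), g (ext v)) -
      D * p ^ 2 / (N + 2) ^ 2 ≤ 𝔼 i, g i := by
  set lp : Fin p := ⟨p - 1, by omega⟩ with hlp
  set A₀ := 𝔼 i : Fin p → Fin (N + 1), g fun l => (i l).castSucc with hA₀
  set A₁ := 𝔼 v : Fin (p - 1) → Fin (N + 1), g (ext v) with hA₁
  set A := 𝔼 i, g i with hA
  have hD0 : 0 ≤ D := by simpa using hD (fun _ => 0) fun _ => 0
  have hlow : ∀ i, 0 ≤ g i - (A₁ - D) := by
    intro i
    have : A₁ ≤ g i + D := by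
      refine expect_le univ_nonempty fun v _ => ?_
      linarith [(abs_le.1 (hD (ext v) i)).2]
    linarith
  let J : (Fin p → Fin (N + 1)) ⊕ (Fin p × (Fin (p - 1) → Fin (N + 1))) → Fin p → Fin (N + 2) :=
    Sum.elim (fun i l => (i l).castSucc) fun x => ext x.2 ∘ Equiv.swap x.1 lp
  have hJl : ∀ (l : Fin p) (v : Fin (p - 1) → Fin (N + 1)), J (Sum.inr (l, v)) l = Fin.last _ := by
    intro l v
    simp only [J, Sum.elim_inr, Function.comp_apply, Equiv.swap_apply_left]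
    exact (ext_eq_last hp v lp).2 rfl
  have hJ : Function.Injective J := by
    rintro (i | ⟨l, v⟩) (i' | ⟨l', v'⟩) h
    · congr 1
      funext l
      exact Fin.castSucc_injective _ (congrFun h l)
    · exact absurd ((congrFun h l').trans (hJl l' v')) (Fin.castSucc_ne_last _)
    · exact absurd ((congrFun h l).symm.trans (hJl l v)) (Fin.castSucc_ne_last _)
    · have h1 : ext v' (Equiv.swap l' lp l) = Fin.last _ := (congrFun h l).symm.trans (hJl l v)
      have h2 : Equiv.swap l' lp l = lp := (ext_eq_last hp v' _).1 h1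
      have h3 : l = l' := by
        rw [Equiv.swap_apply_eq_iff, Equiv.swap_apply_right] at h2
        exact h2
      subst h3
      have h4 : ext v = ext v' := (Equiv.swap l lp).surjective.injective_comp_right h
      rw [ext_injective h4]
  have hsum : ∑ x, (g (J x) - (A₁ - D)) ≤ ∑ i, (g i - (A₁ - D)) := by
    refine le_trans (le_of_eq (sum_map univ ⟨J, hJ⟩ fun i => g i - (A₁ - D)).symm) ?_
    exact sum_le_sum_of_subset_of_nonneg (subset_univ _) fun i _ _ => hlow i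
  have e0 : ∑ i : Fin p → Fin (N + 1), (g fun l => (i l).castSucc) = ((N : ℝ) + 1) ^ p * A₀ := by
    rw [hA₀, ← Fintype.card_mul_expect]; simp
  have e1 : ∑ v : Fin (p - 1) → Fin (N + 1), g (ext v) = ((N : ℝ) + 1) ^ (p - 1) * A₁ := by
    rw [hA₁, ← Fintype.card_mul_expect]; simp
  have e2 : ∑ i, g i = ((N : ℝ) + 2) ^ p * A := by
    rw [hA, ← Fintype.card_mul_expect]; simp
  rw [Fintype.sum_sum_type, Fintype.sum_prod_type] at hsum
  simp only [J, Sum.elim_inl, Sum.elim_inr, hs, sum_sub_distrib, e0, e1, e2, sum_const, card_univ,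
    Fintype.card_fun, Fintype.card_fin, nsmul_eq_mul] at hsum
  push_cast at hsum
  -- divide by `(N+2)^p`
  set x : ℝ := ((N : ℝ) + 1) / (N + 2) with hx
  have hn : (0 : ℝ) < N + 2 := by positivity
  have hx0 : 0 ≤ x := by positivity
  have hx1 : (N : ℝ) + 1 = x * (N + 2) := by rw [hx]; field_simp
  have hx2 : 1 - x = 1 / (N + 2) := by rw [hx]; field_simp; ring
  have hy : 0 < 1 - x := by rw [hx2]; positivity
  have hnp : (0 : ℝ) < (N + 2) ^ p := by positivity
  have e3 : ((N : ℝ) + 1) ^ p = x ^ p * (N + 2) ^ p := by rw [← mul_pow, ← hx1]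
  have e4 : ((N : ℝ) + 1) ^ (p - 1) = x ^ (p - 1) * (1 - x) * (N + 2) ^ p := by
    obtain ⟨m, rfl⟩ : ∃ m, p = m + 1 := ⟨p - 1, by omega⟩
    rw [hx2, Nat.add_sub_cancel, pow_succ, hx1, mul_pow]
    field_simp
  rw [e3, e4] at hsum
  have h5 : x ^ p * (A₀ - (A₁ - D)) + p * (x ^ (p - 1) * (1 - x)) * D ≤ A - (A₁ - D) := by
    refine le_of_mul_le_mul_right ?_ hnp
    linarith
  have b1 : 1 - p * (1 - x) ≤ x ^ p := by
    have := one_add_mul_le_pow (a := x - 1) (by linarith) p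
    rw [add_sub_cancel] at this
    linarith
  have b2 : 1 - p * (1 - x) ≤ x ^ (p - 1) := by
    have := one_add_mul_le_pow (a := x - 1) (by linarith) (p - 1)
    rw [add_sub_cancel] at this
    have h6 : ((p - 1 : ℕ) : ℝ) ≤ p := by exact_mod_cast Nat.sub_le p 1
    nlinarith
  have hp0 : (0 : ℝ) ≤ p := Nat.cast_nonneg _
  have b3 : 1 - x ^ p - p * (x ^ (p - 1) * (1 - x)) ≤ p ^ 2 * (1 - x) ^ 2 := by
    have := mul_le_mul_of_nonneg_left b2 (mul_nonneg hp0 hy.le)
    nlinarith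
  have e5 : D * p ^ 2 / (N + 2) ^ 2 = D * (p ^ 2 * (1 - x) ^ 2) := by
    rw [hx2]; field_simp
  rw [e5]
  have := mul_le_mul_of_nonneg_left b3 hD0
  nlinarith

end sites

end Crest.Agent.R141.Ass
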